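import Vale.Agent.P165.Main
import Vale.Agent.P165.TL.Main

/-!
# Generating sets with many pairs that split finite sets

A pair of elements has a height if at most one of the four steps by their squares and inverses
fails to raise it. Each such pair sends at least `|A|` edges out of every finite set `A`, and
distinct pairs add up.
-/

namespace Vale.Agent.P165.Pairs

open Finset

variable {Γ : Type} [Group Γ]

/-- A step of a pair: an element or its inverse. -/
def dir (g : Fin 2 → Γ) (e : Fin 2 × Bool) : Γ := bif e.2 then g e.1 else (g e.1)⁻¹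

/-- At most one of the four steps fails to raise the height. -/
def Height (g : Fin 2 → Γ) : Prop :=
  ∃ H : Γ → ℤ, ∀ v e e', H (v * dir g e) ≤ H v → H (v * dir g e') ≤ H v → e = e'

theorem dir_not (g : Fin 2 → Γ) (e : Fin 2 × Bool) : dir g (e.1, !e.2) = (dir g e)⁻¹ := by
  rcases e with ⟨t, _ | _⟩ <;> simp [dir]

variable [DecidableEq Γ]

/-- The steps of a pair leaving a finite set. -/
def out (g : Fin 2 → Γ) (A : Finset Γ) : Finset (Γ × (Fin 2 × Bool)) :=
  (A ×ˢ univ).filter fun q => q.1 * dir g q.2 ∉ A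

/-- A pair with a height sends two steps out per point. -/
theorem two_card_le_out {g : Fin 2 → Γ} (hg : Height g) (A : Finset Γ) :
    2 * A.card ≤ (out g A).card := by
  obtain ⟨H, hH⟩ := hg
  set I := (A ×ˢ (univ : Finset (Fin 2 × Bool))).filter fun q => q.1 * dir g q.2 ∈ A with hI
  set D := (A ×ˢ (univ : Finset (Fin 2 × Bool))).filter fun q => H (q.1 * dir g q.2) ≤ H q.1
    with hD
  have hDA : D.card ≤ A.card := by
    refine card_le_card_of_injOn Prod.fst (fun q hq => (mem_product.1 (mem_filter.1 hq).1).1) ?_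
    rintro ⟨v, e⟩ hq ⟨v', e'⟩ hq' (rfl : v = v')
    rw [hH v e e' (mem_filter.1 hq).2 (mem_filter.1 hq').2]
  have hsub : I ⊆ D ∪ D.image fun q => (q.1 * dir g q.2, (q.2.1, !q.2.2)) := by
    rintro ⟨v, e⟩ hq
    obtain ⟨hv, hw⟩ := mem_filter.1 hq
    by_cases h : H (v * dir g e) ≤ H v
    · exact mem_union_left _ (mem_filter.2 ⟨hv, h⟩)
    · refine mem_union_right _ (mem_image.2 ⟨(v * dir g e, (e.1, !e.2)), mem_filter.2 ⟨?_, ?_⟩, ?_⟩)
      · exact mem_product.2 ⟨hw, mem_univ _⟩
      · dsimp only; rw [dir_not, mul_inv_cancel_right]; omega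
      · simp [dir_not]
  have hIc : I.card ≤ 2 * A.card := by
    have := (card_le_card hsub).trans (card_union_le _ _)
    have := (card_image_le (s := D) (f := fun q => (q.1 * dir g q.2, (q.2.1, !q.2.2))))
    omega
  have hsplit := card_filter_add_card_filter_not (s := A ×ˢ (univ : Finset (Fin 2 × Bool)))
    (fun q => q.1 * dir g q.2 ∈ A)
  have hc : (A ×ˢ (univ : Finset (Fin 2 × Bool))).card = 4 * A.card := by simp [mul_comm]
  simp only [out, ← hI] at *
  omega

/-- A pair whose squares have a height sends one step out per point. -/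
theorem card_le_out_of_sq {g : Fin 2 → Γ} (hg : Height fun t => g t ^ 2) (A : Finset Γ) :
    A.card ≤ (out g A).card := by
  have h2 := two_card_le_out hg A
  set O := out g A with hO
  set P := (A ×ˢ (univ : Finset (Fin 2 × Bool))).filter
    fun q => q.1 * dir g q.2 ∈ A ∧ q.1 * dir g q.2 * dir g q.2 ∉ A with hP
  have hsub : out (fun t => g t ^ 2) A ⊆ O ∪ P := by
    rintro ⟨v, e⟩ hq
    obtain ⟨hv, hw⟩ := mem_filter.1 hq
    have hd : dir (fun t => g t ^ 2) e = dir g e * dir g e := by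
      rcases e with ⟨t, _ | _⟩ <;> simp [dir, pow_two]
    rw [hd, ← mul_assoc] at hw
    by_cases h : v * dir g e ∈ A
    · exact mem_union_right _ (mem_filter.2 ⟨hv, h, hw⟩)
    · exact mem_union_left _ (mem_filter.2 ⟨hv, h⟩)
  have hPO : P.card ≤ O.card := by
    refine card_le_card_of_injOn (fun q => (q.1 * dir g q.2, q.2)) ?_ ?_
    · rintro ⟨v, e⟩ hq
      obtain ⟨-, h, h'⟩ := mem_filter.1 hq
      exact mem_filter.2 ⟨mem_product.2 ⟨h, mem_univ _⟩, h'⟩
    · rintro ⟨v, e⟩ - ⟨v', e'⟩ - h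
      simp only [Prod.mk.injEq] at h
      obtain ⟨h, rfl⟩ := h
      rw [mul_right_cancel h]
  have := (card_le_card hsub).trans (card_union_le _ _)
  omega

omit [DecidableEq Γ] in
/-- Many pairs in a small generating set give nonuniqueness. -/
theorem pc_lt_pu_of_heights (L : ℕ) :
    ∃ k₀ : ℕ, ∀ (Γ : Type) [Group Γ] (s : Set Γ), s.Finite → Subgroup.closure s = ⊤ →
      ∀ (κ : Type) [Fintype κ], k₀ ≤ Fintype.card κ → s.ncard ≤ L * Fintype.card κ →
      ∀ g : κ → Fin 2 → Γ, (∀ i t, g i t ∈ s) →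
        (Function.Injective fun e : κ × (Fin 2 × Bool) => dir (g e.1) e.2) →
        (∀ i, Height fun t => g i t ^ 2) →
        pc (SimpleGraph.mulCayley s) < pu (SimpleGraph.mulCayley s) := by
  obtain ⟨C, hC, hexp⟩ := nonuniqueness_of_edge_expansion 2 one_le_two
  refine ⟨⌈C * (2 * (L : ℝ)) ^ 11⌉₊ + 1, fun Γ _ s hs hgen κ _ hk hcard g hmem hinj hH => ?_⟩
  classical
  obtain ⟨hconn, d, hd⟩ := TL.connected_regular_mulCayley s hs hgen
  set k := Fintype.card κ with hkdef
  set G := SimpleGraph.mulCayley s with hG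
  have hadj : ∀ v (i : κ) e, G.Adj v (v * dir (g i) e) := by
    intro v i e
    refine (SimpleGraph.mulCayley_adj' _ _ _).2 ⟨fun h => ?_, g i e.1, hmem i e.1, ?_⟩
    · have h1 : dir (g i) e = 1 := by simpa using h.symm
      have := hinj (a₁ := (i, e)) (a₂ := (i, (e.1, !e.2))) (by simp [dir_not, h1])
      rcases e with ⟨t, _ | _⟩ <;> simp at this
    · rcases e with ⟨t, _ | _⟩ <;> simp [dir]
  have hfin : ∀ v, (G.neighborSet v).Finite := fun v =>
    Set.finite_of_encard_eq_coe (hd v)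
  have hE : EdgeExpands G k := by
    intro A
    set T := (univ : Finset κ).sigma fun i => out (g i) A with hT
    let f : (Σ _ : κ, Γ × (Fin 2 × Bool)) → Γ × Γ := fun q =>
      (q.2.1, q.2.1 * dir (g q.1) q.2.2)
    have hf : Function.Injective f := by
      rintro ⟨i, v, e⟩ ⟨i', v', e'⟩ h
      simp only [f, Prod.mk.injEq] at h
      obtain ⟨rfl, h⟩ := h
      have := hinj (a₁ := (i, e)) (a₂ := (i', e')) (mul_left_cancel h)
      simp only [Prod.mk.injEq] at this
      rw [this.1, this.2]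
    have hsub : ↑(T.image f) ⊆ edgeBoundary G A := by
      intro x hx
      obtain ⟨⟨i, v, e⟩, hq, rfl⟩ := mem_image.1 hx
      obtain ⟨hv, hw⟩ := mem_filter.1 (mem_sigma.1 hq).2
      exact ⟨(mem_product.1 hv).1, hw, hadj v i e⟩
    have hbfin : (edgeBoundary G A).Finite :=
      ((A.finite_toSet.prod ((A.finite_toSet.biUnion fun v _ => hfin v)))).subset
        fun q hq => ⟨hq.1, Set.mem_biUnion (x := q.1) hq.1 hq.2.2⟩
    have h1 : k * A.card ≤ (edgeBoundary G A).ncard := by
      calc k * A.card = ∑ _i : κ, A.card := by simp [hkdef]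
        _ ≤ ∑ i, (out (g i) A).card := sum_le_sum fun i _ => card_le_out_of_sq (hH i) A
        _ = (T.image f).card := by rw [card_image_of_injective _ hf, hT, card_sigma]
        _ = (↑(T.image f) : Set (Γ × Γ)).ncard := (Set.ncard_coe_finset _).symm
        _ ≤ _ := Set.ncard_le_ncard hsub hbfin
    exact_mod_cast h1
  have hdeg : d ≤ 2 * (L * k) := by
    have h1 : (G.neighborSet 1) ⊆ s ∪ s⁻¹ := by
      intro w hw
      obtain ⟨-, a, ha, h | h⟩ := (SimpleGraph.mulCayley_adj' _ _ _).1 hw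
      · left; rw [one_mul] at h; exact h ▸ ha
      · right; exact Set.mem_inv.2 (by rw [inv_eq_of_mul_eq_one_right h.symm]; exact ha)
    have h2 : (G.neighborSet 1).ncard = d := by rw [Set.ncard_def, hd 1]; simp
    have h3 := Set.ncard_le_ncard h1 (hs.union hs.inv)
    have h4 := Set.ncard_union_le s s⁻¹
    rw [Set.ncard_inv] at h4
    omega
  have hk0 : (0 : ℝ) < k := by exact_mod_cast (by omega : 0 < k)
  have hq : QuasiTransitive G := ⟨{1}, fun v =>
    ⟨⟨Equiv.mulLeft v⁻¹, SimpleGraph.mulCayley_adj_mul_iff_right⟩, mem_singleton.2 (inv_mul_cancel v)⟩⟩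
  refine hexp d k Γ G hconn hd hq hk0 hE ?_
  have h1 : (d : ℝ) ≤ 2 * L * k := by
    have : ((d : ℕ) : ℝ) ≤ ((2 * (L * k) : ℕ) : ℝ) := Nat.cast_le.2 hdeg
    simpa [mul_assoc] using this
  have h2 : C * (2 * (L : ℝ)) ^ 11 ≤ k := by
    refine (Nat.le_ceil _).trans ?_
    exact_mod_cast (by omega : ⌈C * (2 * (L : ℝ)) ^ 11⌉₊ ≤ k)
  calc C * (d : ℝ) ^ (5 * 2 + 1) ≤ C * (2 * L * k) ^ 11 := by gcongr
    _ = C * (2 * (L : ℝ)) ^ 11 * (k : ℝ) ^ 11 := by ring
    _ ≤ (k : ℝ) * (k : ℝ) ^ 11 := by gcongr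
    _ = (k : ℝ) ^ (6 * 2) := by ring

end Vale.Agent.P165.Pairs
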