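import Vale.Agent.P165.Pairs.Blocks

/-!
# Free pairs, and the elementary generators of the special linear groups
-/

namespace Vale.Agent.P165.Pairs

open Finset FreeGroup Matrix
open scoped MatrixGroups

/-- At most one letter shortens a reduced word. -/
theorem eq_of_shorter (w : FreeGroup (Fin 2)) (e : Fin 2 × Bool)
    (h : (w * FreeGroup.mk [e]).toWord.length ≤ w.toWord.length) :
    w.toWord.getLast? = some (e.1, !e.2) := by
  by_contra hne
  have hm : (FreeGroup.mk [e] : FreeGroup (Fin 2)).toWord = [e] := by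
    rw [toWord_mk, IsReduced.singleton.reduce_eq]
  have hred : IsReduced (w.toWord ++ [e]) := by
    refine List.IsChain.append isReduced_toWord IsReduced.singleton ?_
    intro x hx y hy hxy
    simp only [List.head?_cons, Option.mem_def, Option.some.injEq] at hy
    subst hy
    by_contra hb
    refine hne (hx.trans (congrArg some (Prod.ext hxy ?_)))
    revert hb
    cases x.2 <;> cases e.2 <;> simp
  rw [toWord_mul, hm, hred.reduce_eq, List.length_append, List.length_singleton] at h
  omega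

/-- A free pair has a height: the word length along the cosets of the subgroup it generates. -/
theorem height_of_free {Γ : Type} [Group Γ] {g : Fin 2 → Γ}
    (h : Function.Injective (FreeGroup.lift g)) : Height g := by
  classical
  set φ := FreeGroup.lift g with hφ
  let r : Γ → Γ := fun v => (QuotientGroup.mk (s := φ.range) v).out
  have hmem : ∀ v, ∃ w, r v * φ w = v := fun v => by
    obtain ⟨w, hw⟩ := MonoidHom.mem_range.1
      (QuotientGroup.eq.1 (Quotient.out_eq (QuotientGroup.mk (s := φ.range) v)))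
    exact ⟨w, by rw [hw, mul_inv_cancel_left]⟩
  choose word hword using hmem
  refine ⟨fun v => ((word v).toWord.length : ℤ), fun v e e' he he' => ?_⟩
  have key : ∀ d : Fin 2 × Bool, word (v * dir g d) = word v * FreeGroup.mk [d] := by
    intro d
    have hd : φ (FreeGroup.mk [d]) = dir g d := by
      rcases d with ⟨t, _ | _⟩ <;> simp [hφ, dir]
    have hr : r (v * dir g d) = r v := by
      refine congrArg Quotient.out (QuotientGroup.eq.2 ?_)
      rw [_root_.mul_inv_rev, inv_mul_cancel_right]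
      exact inv_mem (MonoidHom.mem_range.2 ⟨_, hd⟩)
    apply h
    have e1 := hword (v * dir g d)
    rw [hr] at e1
    rw [_root_.map_mul, hd]
    exact mul_left_cancel (e1.trans (by rw [← mul_assoc, hword v]))
  simp only [Nat.cast_le] at he he'
  rw [key] at he he'
  have := (eq_of_shorter _ _ he).symm.trans (eq_of_shorter _ _ he')
  simp only [Option.some.injEq, Prod.mk.injEq, Bool.not_inj_iff] at this
  exact Prod.ext this.1 this.2

/-- Many free pairs in a small generating set give nonuniqueness. -/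
theorem pc_lt_pu_of_free_pairs (L : ℕ) :
    ∃ k₀ : ℕ, ∀ (Γ : Type) [Group Γ] (s : Set Γ), s.Finite → Subgroup.closure s = ⊤ →
      ∀ k ≥ k₀, s.ncard ≤ L * k → ∀ g : Fin k → Fin 2 → Γ, (∀ i t, g i t ∈ s) →
        (Function.Injective fun e : Fin k × (Fin 2 × Bool) =>
          bif e.2.2 then g e.1 e.2.1 else (g e.1 e.2.1)⁻¹) →
        (∀ i, Function.Injective (FreeGroup.lift fun t => g i t ^ 2)) →
        pc (SimpleGraph.mulCayley s) < pu (SimpleGraph.mulCayley s) := by
  obtain ⟨k₀, hk₀⟩ := pc_lt_pu_of_heights L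
  exact ⟨k₀, fun Γ _ s hs hgen k hk hcard g hmem hinj hfree =>
    hk₀ Γ s hs hgen (Fin k) (by simpa using hk) (by simpa using hcard) g hmem hinj
      fun i => height_of_free (hfree i)⟩

/-! ### Elementary matrices -/

/-- Two columns of an invertible integer matrix: at most one of the four shears by two fails to
lengthen them. -/
theorem shear_unique {P Q q : ℤ} (hP : 0 ≤ P) (hQ : 0 ≤ Q) (hq : q ^ 2 < P * Q) :
    0 < P + q ∨ (0 < P - q ∧ 0 < Q + q ∧ 0 < Q - q) := by
  by_cases h : 0 < P + q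
  · exact Or.inl h
  · exact Or.inr ⟨by nlinarith, by nlinarith, by nlinarith⟩

variable {n : ℕ}

/-- An elementary matrix. -/
def elem {i j : Fin n} (h : i ≠ j) (t : ℤ) : SL(n, ℤ) :=
  ⟨transvection i j t, det_transvection_of_ne i j h t⟩

theorem elem_mul {i j : Fin n} (h : i ≠ j) (a b : ℤ) : elem h a * elem h b = elem h (a + b) :=
  Subtype.ext (transvection_mul_transvection_same i j h a b)

theorem elem_inv {i j : Fin n} (h : i ≠ j) (a : ℤ) : (elem h a)⁻¹ = elem h (-a) := by
  refine inv_eq_of_mul_eq_one_right ?_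
  rw [elem_mul, add_neg_cancel]
  exact Subtype.ext (transvection_zero i j)

/-- The squared length of two columns. -/
def colH (i j : Fin n) (v : SL(n, ℤ)) : ℤ :=
  ∑ r, ((v : Matrix (Fin n) (Fin n) ℤ) r i ^ 2 + (v : Matrix (Fin n) (Fin n) ℤ) r j ^ 2)

theorem colH_comm (i j : Fin n) (v : SL(n, ℤ)) : colH i j v = colH j i v := by
  simp only [colH, add_comm]

theorem colH_elem {i j : Fin n} (h : i ≠ j) (t : ℤ) (v : SL(n, ℤ)) :
    colH i j (v * elem h t) = colH i j v +
      t * (2 * ∑ r, (v : Matrix (Fin n) (Fin n) ℤ) r i * (v : Matrix (Fin n) (Fin n) ℤ) r j +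
        t * ∑ r, (v : Matrix (Fin n) (Fin n) ℤ) r i ^ 2) := by
  have hM : ((v * elem h t : SL(n, ℤ)) : Matrix (Fin n) (Fin n) ℤ) =
      (v : Matrix (Fin n) (Fin n) ℤ) * transvection i j t := rfl
  simp only [colH, hM, mul_transvection_apply_same,
    mul_transvection_apply_of_ne _ _ _ _ h, Finset.mul_sum, ← Finset.sum_add_distrib]
  exact Finset.sum_congr rfl fun r _ => by ring

theorem gram_pos {i j : Fin n} (h : i ≠ j) (v : SL(n, ℤ)) :
    (∑ r, (v : Matrix (Fin n) (Fin n) ℤ) r i * (v : Matrix (Fin n) (Fin n) ℤ) r j) ^ 2 <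
      (∑ r, (v : Matrix (Fin n) (Fin n) ℤ) r i ^ 2) *
        ∑ r, (v : Matrix (Fin n) (Fin n) ℤ) r j ^ 2 := by
  set M := (v : Matrix (Fin n) (Fin n) ℤ) with hM
  set N := (↑(v⁻¹) : Matrix (Fin n) (Fin n) ℤ) with hN
  have hNM : N * M = 1 := by
    rw [hN, hM, ← Matrix.SpecialLinearGroup.coe_mul, inv_mul_cancel,
      Matrix.SpecialLinearGroup.coe_one]
  have happ : ∀ a b, ∑ r, N a r * M r b = (1 : Matrix (Fin n) (Fin n) ℤ) a b := fun a b => by
    rw [← hNM, Matrix.mul_apply]
  set P := ∑ r, M r i ^ 2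
  set Q := ∑ r, M r j ^ 2 with hQ
  set q := ∑ r, M r i * M r j
  have hQ0 : Q ≠ 0 := fun h0 => by
    have hz := (sum_eq_zero_iff_of_nonneg fun r _ => sq_nonneg (M r j)).1 h0
    have h1 := happ j j
    rw [Matrix.one_apply_eq] at h1
    refine one_ne_zero (h1.symm.trans (sum_eq_zero fun r hr => ?_))
    rw [sq_eq_zero_iff.1 (hz r hr), mul_zero]
  have hQpos : 0 < Q := lt_of_le_of_ne (sum_nonneg fun r _ => sq_nonneg _) (Ne.symm hQ0)
  have e1 : ∑ r, (Q * M r i - q * M r j) ^ 2 = Q * (Q * P - q ^ 2) := by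
    calc ∑ r, (Q * M r i - q * M r j) ^ 2
        = ∑ r, (Q ^ 2 * M r i ^ 2 - 2 * Q * q * (M r i * M r j) + q ^ 2 * M r j ^ 2) :=
          sum_congr rfl fun r _ => by ring
      _ = Q ^ 2 * P - 2 * Q * q * q + q ^ 2 * Q := by
          rw [sum_add_distrib, sum_sub_distrib, ← mul_sum, ← mul_sum, ← mul_sum]
      _ = _ := by ring
  have hpos : 0 < ∑ r, (Q * M r i - q * M r j) ^ 2 := by
    refine lt_of_le_of_ne (sum_nonneg fun r _ => sq_nonneg _) fun h0 => hQ0 ?_
    have hz := (sum_eq_zero_iff_of_nonneg fun r _ => sq_nonneg (Q * M r i - q * M r j)).1 h0.symm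
    have h1 : ∑ r, N i r * (Q * M r i - q * M r j) = 0 :=
      sum_eq_zero fun r hr => by rw [sq_eq_zero_iff.1 (hz r hr), mul_zero]
    have h2 : ∑ r, N i r * (Q * M r i - q * M r j) =
        Q * (∑ r, N i r * M r i) - q * ∑ r, N i r * M r j := by
      rw [mul_sum, mul_sum, ← sum_sub_distrib]
      exact sum_congr rfl fun r _ => by ring
    rw [h2, happ, happ, Matrix.one_apply_eq, Matrix.one_apply_ne h] at h1
    linarith
  rw [e1] at hpos
  nlinarith [pos_of_mul_pos_right hpos hQpos.le]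

/-- Squares of two opposite elementary matrices have a height. -/
theorem height_elem {i j : Fin n} (h : i ≠ j) {H : Subgroup SL(n, ℤ)} (hi : elem h 1 ∈ H)
    (hj : elem h.symm 1 ∈ H) :
    Height fun t : Fin 2 => (![⟨elem h 1, hi⟩, ⟨elem h.symm 1, hj⟩] t : H) ^ 2 := by
  refine ⟨fun v => colH i j (v : SL(n, ℤ)), fun v e e' he he' => ?_⟩
  set P := ∑ r, ((v : SL(n, ℤ)) : Matrix (Fin n) (Fin n) ℤ) r i ^ 2
  set Q := ∑ r, ((v : SL(n, ℤ)) : Matrix (Fin n) (Fin n) ℤ) r j ^ 2
  set q := ∑ r, ((v : SL(n, ℤ)) : Matrix (Fin n) (Fin n) ℤ) r i *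
    ((v : SL(n, ℤ)) : Matrix (Fin n) (Fin n) ℤ) r j with hq
  let Δ : Fin 2 × Bool → ℤ := fun d => if d.1 = 0
    then (bif d.2 then P + q else P - q) else (bif d.2 then Q + q else Q - q)
  have hsym : ∑ r, ((v : SL(n, ℤ)) : Matrix (Fin n) (Fin n) ℤ) r j *
      ((v : SL(n, ℤ)) : Matrix (Fin n) (Fin n) ℤ) r i = q := sum_congr rfl fun r _ => mul_comm _ _
  have key : ∀ d, colH i j ((v * dir (fun t : Fin 2 =>
      (![⟨elem h 1, hi⟩, ⟨elem h.symm 1, hj⟩] t : H) ^ 2) d : H) : SL(n, ℤ)) =
      colH i j (v : SL(n, ℤ)) + 4 * Δ d := by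
    rintro ⟨t, b⟩
    fin_cases t <;> cases b <;>
      simp only [dir, Δ, Fin.zero_eta, Fin.mk_one, Matrix.cons_val_zero, Matrix.cons_val_one,
        cond_true, cond_false, Subgroup.coe_mul, Subgroup.coe_inv, pow_two,
        elem_mul, elem_inv, if_true, one_ne_zero, if_false]
    · rw [colH_elem, ← hq]; ring
    · rw [colH_elem, ← hq]; ring
    · rw [colH_comm i j, colH_elem, hsym, colH_comm j i]; ring
    · rw [colH_comm i j, colH_elem, hsym, colH_comm j i]; ring
  dsimp only at he he'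
  rw [key] at he he'
  have hs := gram_pos h (v : SL(n, ℤ))
  have hP : 0 ≤ P := sum_nonneg fun r _ => sq_nonneg _
  have hQ : 0 ≤ Q := sum_nonneg fun r _ => sq_nonneg _
  have u1 := shear_unique hP hQ hs
  have u2 := shear_unique hP hQ (q := -q) (by simpa using hs)
  have u3 := shear_unique hQ hP (by rw [mul_comm]; exact hs)
  have u4 := shear_unique hQ hP (q := -q) (by rw [mul_comm]; simpa using hs)
  rcases e with ⟨t, b⟩; rcases e' with ⟨t', b'⟩
  fin_cases t <;> fin_cases t' <;> cases b <;> cases b' <;>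
    first
      | rfl
      | (exfalso; simp [Δ] at he he'; omega)

/-- The elementary generators in high rank. -/
theorem pc_lt_pu_elementary :
    ∃ n₀ : ℕ, ∀ n ≥ n₀,
      let S : Set SL(n, ℤ) := {g | ∃ i j : Fin n, i ≠ j ∧ (g : Matrix (Fin n) (Fin n) ℤ) =
        transvection i j 1}
      pc (SimpleGraph.mulCayley ((Subgroup.closure S).subtype ⁻¹' S)) <
        pu (SimpleGraph.mulCayley ((Subgroup.closure S).subtype ⁻¹' S)) := by
  classical
  obtain ⟨k₀, hk₀⟩ := pc_lt_pu_of_heights 2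
  refine ⟨k₀ + 2, fun n hn => ?_⟩
  intro S
  set K := Subgroup.closure S
  let κ := {e : Fin n × Fin n // e.1 < e.2}
  let O := {e : Fin n × Fin n // e.1 ≠ e.2}
  have hS : ∀ {i j : Fin n} (hij : i ≠ j), elem hij 1 ∈ S := fun {i j} hij => ⟨i, j, hij, rfl⟩
  have hSeq : S = Set.range fun e : O => elem e.2 1 := by
    ext x
    constructor
    · rintro ⟨i, j, hij, hx⟩; exact ⟨⟨(i, j), hij⟩, Subtype.ext hx.symm⟩
    · rintro ⟨e, rfl⟩; exact hS e.2
  have hfinS : S.Finite := hSeq ▸ Set.finite_range _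
  have hOκ : Fintype.card O ≤ 2 * Fintype.card κ := by
    let f : O → κ × Bool := fun e => if h : e.1.1 < e.1.2 then (⟨e.1, h⟩, true)
      else (⟨(e.1.2, e.1.1), lt_of_le_of_ne (not_lt.1 h) e.2.symm⟩, false)
    have := Fintype.card_le_of_injective f (by
      rintro ⟨⟨a, b⟩, hab⟩ ⟨⟨c, d⟩, hcd⟩ hf
      simp only [f] at hf
      split_ifs at hf
      · exact Subtype.ext (congrArg (fun z : κ × Bool => z.1.1) hf)
      · exact absurd (congrArg Prod.snd hf) (by simp)
      · exact absurd (congrArg Prod.snd hf) (by simp)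
      · have h2 := congrArg (fun z : κ × Bool => z.1.1) hf
        exact Subtype.ext (Prod.ext (congrArg Prod.snd h2) (congrArg Prod.fst h2)))
    simpa [mul_comm] using this
  have hκ : k₀ ≤ Fintype.card κ := by
    refine le_trans (show k₀ ≤ n - 1 by omega) ?_
    have := Fintype.card_le_of_injective (fun i : Fin (n - 1) =>
      (⟨(⟨0, by omega⟩, ⟨i + 1, by omega⟩), by simp [Fin.lt_def]⟩ : κ)) (fun a b hab => by
        simp only [Subtype.mk.injEq, Prod.mk.injEq, Fin.mk.injEq] at hab
        exact Fin.ext (by omega))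
    simpa using this
  let g : κ → Fin 2 → K := fun e => ![⟨elem (ne_of_lt e.2) 1, Subgroup.subset_closure (hS _)⟩,
    ⟨elem (ne_of_gt e.2) 1, Subgroup.subset_closure (hS _)⟩]
  refine hk₀ K _ (hfinS.preimage (Subgroup.subtype_injective _).injOn)
    Subgroup.closure_closure_coe_preimage κ hκ ?_ g ?_ ?_ fun e => height_elem (ne_of_lt e.2) _ _
  · refine le_trans (Set.ncard_le_ncard_of_injOn (fun x : K => (x : SL(n, ℤ))) (fun x hx => hx)
      Subtype.val_injective.injOn hfinS) (le_trans ?_ hOκ)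
    rw [hSeq]
    calc (Set.range fun e : O => elem e.2 1).ncard ≤ (Set.univ : Set O).ncard := by
          rw [← Set.image_univ]; exact Set.ncard_image_le
      _ = _ := by rw [Set.ncard_univ, Nat.card_eq_fintype_card]
  · intro e t
    fin_cases t
    · exact hS (ne_of_lt e.2)
    · exact hS (ne_of_gt e.2)
  · let p : κ × (Fin 2 × Bool) → Fin n × Fin n × ℤ := fun x =>
      ((if x.2.1 = 0 then x.1.1.1 else x.1.1.2), (if x.2.1 = 0 then x.1.1.2 else x.1.1.1),
        bif x.2.2 then 1 else -1)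
    have hp : ∀ x, ((dir (g x.1) x.2 : K) : SL(n, ℤ)).1 =
        transvection (p x).1 (p x).2.1 (p x).2.2 := by
      rintro ⟨e, t, b⟩
      fin_cases t <;> cases b <;> simp [dir, g, p, elem_inv] <;> rfl
    intro x y hxy
    have hne : (p x).1 ≠ (p x).2.1 := by
      rcases x with ⟨e, t, b⟩
      fin_cases t <;> simp [p, ne_of_lt e.2, ne_of_gt e.2]
    have ht : (p x).2.2 ≠ 0 := by simp only [p]; cases x.2.2 <;> simp
    have hM := (hp x).symm.trans ((congrArg (fun z : K => (z : SL(n, ℤ)).1) hxy).trans (hp y))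
    have hxy' := congrFun (congrFun hM (p x).1) (p x).2.1
    simp only [transvection, Matrix.add_apply, Matrix.one_apply_ne hne,
      Matrix.single_apply_same, zero_add] at hxy'
    rw [Matrix.single_apply] at hxy'
    split_ifs at hxy' with hcase
    · obtain ⟨h1, h2⟩ := hcase
      have hpp : p x = p y := Prod.ext h1.symm (Prod.ext h2.symm hxy')
      rcases x with ⟨⟨⟨a, b⟩, hab⟩, t, u⟩; rcases y with ⟨⟨⟨c, d⟩, hcd⟩, t', u'⟩
      simp only [p] at hpp
      fin_cases t <;> fin_cases t' <;> cases u <;> cases u' <;> simp at hpp <;>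
        first
          | (obtain ⟨rfl, rfl⟩ := hpp; rfl)
          | (obtain ⟨rfl, rfl⟩ := hpp; exact absurd hab (not_lt.2 hcd.le))
    · exact absurd hxy' ht

end Vale.Agent.P165.Pairs
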